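import Crest.Agent.X212.Coc52.Plb
import Crest.Agent.X212.Mcg32.Lk
import Crest.Agent.X212.Lad50.Coll
import Crest.Agent.X212.Tub3.Nf
import Crest.Agent.X212.Arx49.Dual

/-!
# Row 212, PERF (helper52): change of coordinates in `K` (any genus), handles

`mvK_one` … `lk2` repeat `Mcg32/Lk` (helper32) with `MvK` in place of `Mv`.
-/

set_option autoImplicit false
set_option linter.unusedSectionVars false
noncomputable section
open Set Filter Topology Function Complex
open scoped ContDiff Manifold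

namespace Crest.Agent.X212.Coc52
open Prf6 Mcg32

section
variable {M : Type*} [TopologicalSpace M] [ChartedSpace ℂ M] [IsManifold IC ∞ M] [T2Space M]
  {o : Or M} {U : Set M} {A B C : ℂ → M}

/-- an element of `K` supported in `U` carries the germ of `A` along its core to that of `B` -/
def EqK (o : Or M) (U : Set M) (A B : ℂ → M) : Prop :=
  ∃ k ∈ K o, Near k Uᶜ ∧ ∃ δ > 0, ∀ z : ℂ, |z.im| < δ → k (A z) = B z

theorem EqK.symm (h : EqK o U A B) : EqK o U B A := by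
  obtain ⟨k, h1, h2, δ, h3, h4⟩ := h
  exact ⟨k⁻¹, inv_mem h1, h2.inv, δ, h3, fun z hz => by rw [← h4 z hz]; simp⟩

theorem EqK.trans (h : EqK o U A B) (h' : EqK o U B C) : EqK o U A C := by
  obtain ⟨k, h1, h2, δ, h3, h4⟩ := h
  obtain ⟨g, k1, k2, δ', k3, k4⟩ := h'
  exact ⟨g * k, mul_mem k1 h1, k2.mul h2, min δ δ', lt_min h3 k3, fun z hz => by
    rw [Equiv.Perm.mul_apply, h4 z (hz.trans_le (min_le_left _ _)),
      k4 z (hz.trans_le (min_le_right _ _))]⟩

theorem EqK.neg (h : EqK o U A B) : EqK o U (fun z => A (-z)) fun z => B (-z) := by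
  obtain ⟨k, h1, h2, δ, h3, h4⟩ := h
  exact ⟨k, h1, h2, δ, h3, fun z hz => h4 _ (by simpa using hz)⟩

theorem EqK.mvK (h : EqK o U A B) : MvK o U (core A) (core B) := by
  obtain ⟨k, h1, h2, δ, h3, h4⟩ := h
  refine ⟨k, h1, h2, ?_⟩
  rw [← core_comp]
  unfold core
  congr 1
  exact funext fun s => h4 s (by simpa using h3)

theorem near_maps {k : Equiv.Perm M} (h : Near k Uᶜ) {x : M} (hx : x ∈ U) : k x ∈ U := by
  by_contra hk
  exact hk (by rwa [k.injective (h.fix hk)])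

/-- normal form of one crossing -/
theorem nf_norm {δ : ℝ} {t θ ε : Fin 1 → ℝ} (h : Nf o U A B 1 δ t θ ε) :
    Nf o U (fun z => A (θ 0 + ε 0 * z)) (fun z => B (t 0 + (1 : ℝ) * z)) 1 δ
      (fun _ => 0) (fun _ => 0) (fun _ => 1) where
  hA := an_aff h.hA _ (h.sgn 0)
  hB := an_aff h.hB _ (Or.inl rfl)
  rA := by rintro _ ⟨z, rfl⟩; exact h.rA ⟨_, rfl⟩
  rB := by rintro _ ⟨z, rfl⟩; exact h.rB ⟨_, rfl⟩
  pos := h.pos
  sgn := fun _ => Or.inl rfl
  box := fun j z h1 h2 => by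
    have := h.box 0 z h1 h2
    simpa [mul_assoc] using this
  only := fun z w h1 h2 e => by
    obtain ⟨j, m, hm⟩ := h.only _ _ (by rcases h.sgn 0 with e | e <;> simpa [e] using h1)
      (by simpa using h2) e
    refine ⟨0, m, ?_⟩
    rw [Subsingleton.elim j 0] at hm
    simpa using hm
  sept := fun i j m hm => ⟨Subsingleton.elim _ _, (h.sept 0 0 m (by simpa using hm)).2⟩
  sepθ := fun i j m hm => ⟨Subsingleton.elim _ _, (h.sept 0 0 m (by simpa using hm)).2⟩

end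

section
variable {X : Sf} {U : Set X.R} {A B : ℂ → X.R}

theorem mvK_one {δ : ℝ} {t θ ε : Fin 1 → ℝ} (h : Nf X.o U A B 1 δ t θ ε) :
    MvK X.o U (core A) (core B) := by
  have := EqK.mvK (plumb2 X U _ _ δ (nf_norm h)).1
  rwa [core_aff A (θ 0) (h.sgn 0), core_aff B (t 0) (Or.inl rfl)] at this

theorem mvK_tv (hU : IsOpen U) {γ : ℝ → X.R} (hA : An X.o A) (hAU : core A ⊆ U) (hγ : Cv γ)
    (hr : range γ ⊆ U) {t : ℝ} (ht : Tv A γ t) (ho : ∀ s, γ s ∈ core A → ∃ m : ℤ, s = t + m) :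
    MvK X.o U (core A) (range γ) := by
  obtain ⟨A', B, δ, θ, ε, h, h1, h2⟩ := Tub3.nf1 X U A γ 1 (fun _ => t) hU hA hAU hγ hr
    (fun _ _ _ _ => Subsingleton.elim _ _) (fun _ => ht) fun s hs => ⟨0, ho s hs⟩
  have := mvK_one h
  rwa [Prf6.core_congr h1, Mcg32.core_congr h2] at this

theorem mvK_disj (hU : IsOpen U) (hA : An X.o A) (hB : An X.o B) (hAU : core A ⊆ U)
    (hBU : core B ⊆ U) (hd : Disjoint (core A) (core B)) (cA : IsPreconnected (U \ core A))
    (cB : IsPreconnected (U \ core B)) : MvK X.o U (core A) (core B) := by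
  obtain ⟨γ, hγ, hr, t, t', h1, h2, h3, h4⟩ := Arx49.dual2 X U A B hU hA hB hAU hBU hd cA cB
  exact (mvK_tv hU hA hAU hγ hr h2 h1).trans (mvK_tv hU hB hBU hγ hr h4 h3).symm

theorem mvK_ind (su : Surg) (hU : IsOpen U) (n : ℕ) :
    ∀ (A : ℂ → X.R) (γ : ℝ → X.R) (t : Fin n → ℝ), An X.o A → core A ⊆ U → Cv γ → range γ ⊆ U →
      (∀ i j, ∀ m : ℤ, t i = t j + m → i = j) → (∀ j, Tv A γ (t j)) →
      (∀ s, γ s ∈ core A → ∃ j, ∃ m : ℤ, s = t j + m) → IsPreconnected (U \ core A) →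
      IsPreconnected (U \ range γ) → MvK X.o U (core A) (range γ) := by
  induction n using Nat.strong_induction_on with
  | _ n ih =>
  intro A γ t hA hAU hγ hr hi ht ho cA cγ
  have dj : ∀ (B : ℂ → X.R) (β : ℝ → X.R), An X.o B → core B ⊆ U → Cv β → range β ⊆ U →
      IsPreconnected (U \ core B) → IsPreconnected (U \ range β) → Disjoint (range β) (core B) →
      MvK X.o U (core B) (range β) := fun B β hB hBU hβ hβU cB cβ hd => by
    obtain ⟨C, hC, hCU, e⟩ := exists_an Tub3.tub X hβ hU hβU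
    rw [← e] at cβ hd hβU ⊢
    exact mvK_disj hU hB hC hBU hβU hd.symm cB cβ
  rcases Nat.lt_or_ge n 2 with hn | hn
  · obtain rfl | rfl : n = 0 ∨ n = 1 := by omega
    · refine dj A γ hA hAU hγ hr cA cγ (disjoint_left.2 ?_)
      rintro _ ⟨s, rfl⟩ hs
      obtain ⟨j, -⟩ := ho s hs
      exact j.elim0
    · refine mvK_tv hU hA hAU hγ hr (ht 0) fun s hs => ?_
      obtain ⟨j, h⟩ := ho s hs
      rwa [Subsingleton.elim j 0] at h
  obtain ⟨A', B, δ, θ, ε, h, h1, h2⟩ := Tub3.nf1 X U A γ n t hU hA hAU hγ hr hi ht ho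
  have eA : core A' = core A := Prf6.core_congr h1
  rw [← eA] at cA hAU ⊢
  rw [← Mcg32.core_congr h2] at cγ hr ⊢
  obtain ⟨β, hβ, hβU, cβ, ⟨n', hn', s, s1, s2, s3⟩, h4⟩ := su X U A' B n δ t θ ε hU h hn cγ
  refine (ih n' hn' A' β s h.hA hAU hβ hβU s1 s2 s3 cA cβ).trans (MvK.symm ?_)
  rcases h4 with h4 | ⟨u, h4, h5⟩
  · exact dj B β h.hB hr hβ hβU cγ cβ h4
  · exact mvK_tv hU h.hB hr hβ hβU h4 h5

/-- strong Lickorish transitivity (no connectedness of the surface is used) -/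
theorem mvK_of (su : Surg) (hU : IsOpen U) (hA : An X.o A) (hB : An X.o B) (hAU : core A ⊆ U)
    (hBU : core B ⊆ U) (cA : IsPreconnected (U \ core A)) (cB : IsPreconnected (U \ core B)) :
    MvK X.o U (core A) (core B) := by
  obtain ⟨δ, hδ, h1⟩ := conn_par hU hA hAU cA
  obtain ⟨r, hr, h2, h3⟩ := Tub3.nf0 X A _ δ hA (cv_core hB) hδ
  obtain ⟨h4, h5⟩ := h1 r hr
  obtain ⟨s, s1, s2, s3⟩ := enum (cv_core hB) h3
  refine MvK.trans ?_ (mvK_ind su hU _ _ _ s (hA.shift (r * I)) h4 (cv_core hB) hBU s1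
    (fun j => h2 _ (s2 j)) s3 h5 cB)
  by_cases h0 : r = 0
  · subst h0
    simpa using MvK.refl X.o U (core A)
  · refine mvK_disj hU hA (hA.shift (r * I)) hAU h4 (disjoint_left.2 ?_) cA h5
    rintro _ ⟨t, rfl⟩ ⟨u, e⟩
    exact h0 (by simpa using an_im hA e)

theorem eqK_or (hU : IsOpen U) (hA : An X.o A) (hB : An X.o B) (hAU : core A ⊆ U)
    (e : core A = core B) : EqK X.o U A B ∨ EqK X.o U A fun z => B (-z) := by
  obtain ⟨φ, h1, h2, ε, hε, δ, hδ, h3⟩ := Lad50.Co.coll X A B U hA hB e hU hAU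
  rcases hε with rfl | rfl
  · exact Or.inl ⟨φ 1, h1.one_mem, h2.near 1, δ, hδ, fun z hz => by simpa using h3 z hz⟩
  · exact Or.inr ⟨φ 1, h1.one_mem, h2.near 1, δ, hδ, fun z hz => by simpa using h3 z hz⟩

/-- a handle on the core of `A` -/
theorem exists_nf (hU : IsOpen U) (hA : An X.o A) (hAU : core A ⊆ U)
    (cA : IsPreconnected (U \ core A)) : ∃ A' B δ,
      Nf X.o U A' B 1 δ (fun _ => 0) (fun _ => 0) (fun _ => 1) ∧ core A = core A' := by
  obtain ⟨γ, g1, g2, g3, c, hc, g4⟩ := Arx49.arcx X U (core A) A hU (hU.sdiff (an_cpt hA).isClosed)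
    cA (hA.1 0) (hAU ⟨0, by simp⟩) (Eventually.of_forall fun z => an_mem hA)
  have d : HasDerivAt (fun t : ℝ => (c * t * I : ℂ)) (c * 1 * I) 0 :=
    ((hasDerivAt_id (0 : ℝ)).ofReal_comp.const_mul (c : ℂ)).mul_const I
  obtain ⟨A', B, δ, θ, ε, h, h1, -⟩ := Tub3.nf1 X U A γ 1 (fun _ => 0) hU hA hAU g1 g2
    (fun _ _ _ _ => Subsingleton.elim _ _)
    (fun _ => ⟨fun t => c * t * I, ((contDiff_const.mul ofRealCLM.contDiff).mul
      contDiff_const).contDiffAt, g4, by simp, by rw [d.deriv]; simpa using hc.ne'⟩)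
    fun s hs => ⟨0, by simpa using g3 s hs⟩
  exact ⟨_, _, δ, nf_norm h, ((core_aff A' (θ 0) (h.sgn 0)).trans (Prf6.core_congr h1)).symm⟩

/-- the half turn of a non-separating annulus -/
theorem flip (hU : IsOpen U) (hA : An X.o A) (hAU : core A ⊆ U)
    (cA : IsPreconnected (U \ core A)) : EqK X.o U A fun z => A (-z) := by
  obtain ⟨A', B, δ, h, e⟩ := exists_nf hU hA hAU cA
  have f : EqK X.o U A' fun z => A' (-z) :=
    EqK.trans (plumb2 X U _ _ δ h).1 (plumb2 X U _ _ δ h).2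
  rcases eqK_or hU hA h.hA hAU e with g | g
  · exact (g.trans f).trans g.neg.symm
  · refine (g.trans f.symm).trans (EqK.symm ?_)
    simpa using g.neg

theorem eqK_core (hU : IsOpen U) (hA : An X.o A) (hB : An X.o B) (hAU : core A ⊆ U)
    (cA : IsPreconnected (U \ core A)) (e : core A = core B) : EqK X.o U A B :=
  (eqK_or hU hA hB hAU e).elim id fun g => g.trans (flip hU hB (e ▸ hAU) (e ▸ cA)).symm

/-- COC: change of coordinates in `K` -/
theorem coc (su : Surg) (hU : IsOpen U) (hA : An X.o A) (hB : An X.o B) (hAU : core A ⊆ U)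
    (hBU : core B ⊆ U) (cA : IsPreconnected (U \ core A)) (cB : IsPreconnected (U \ core B)) :
    EqK X.o U A B := by
  obtain ⟨k, k1, k2, e⟩ := mvK_of su hU hA hB hAU hBU cA cB
  rw [← core_comp] at e
  exact EqK.trans ⟨k, k1, k2, 1, one_pos, fun _ _ => rfl⟩
    (eqK_core hU hB (hA.comp (K_le k1)) hBU cB e.symm).symm

/-- HD: a non-separating annulus is part of a handle, same chart -/
theorem hd (hU : IsOpen U) (hA : An X.o A) (hAU : core A ⊆ U)
    (cA : IsPreconnected (U \ core A)) : ∃ B δ, range B ⊆ U ∧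
      Nf X.o univ A B 1 δ (fun _ => 0) (fun _ => 0) (fun _ => 1) := by
  obtain ⟨A', B, δ, h, e⟩ := exists_nf hU hA hAU cA
  obtain ⟨k, k1, k2, δ', h0, k3⟩ := (eqK_core hU hA h.hA hAU cA e).symm
  have l1 := min_le_left δ δ'
  have l2 := min_le_right δ δ'
  refine ⟨k ∘ B, min δ δ', ?_, hA, h.hB.comp (K_le k1), subset_univ _, subset_univ _,
    lt_min h.pos h0, h.sgn, fun j z h1 h2 => ?_, fun z w h1 h2 e => ?_,
    fun i j m hm => h.sept i j m (by linarith), fun i j m hm => h.sepθ i j m (by linarith)⟩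
  · rintro _ ⟨z, rfl⟩
    exact near_maps k2 (h.rB ⟨z, rfl⟩)
  · rw [comp_apply, h.box j z (by linarith) (by linarith), k3]
    simpa using h1.trans_le l2
  · rw [← k3 z (by linarith), comp_apply, k.injective.eq_iff] at e
    obtain ⟨j, m, hm⟩ := h.only z w (by linarith) (by linarith) e
    have b := h.box 0 (w - m) (by simpa using hm) (by simpa using h2.trans_le l1)
    have p := h.hB.per (w - m) m
    simp only [ofReal_zero, zero_add, ofReal_one, one_mul, sub_add_cancel] at b p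
    have := h.hA.im_eq (e.trans (p.trans b))
    refine ⟨j, m, ?_⟩
    rw [this] at h1
    simpa using h1

end

theorem lk2 (su : Surg) : Lk2 := fun _ _ _ _ _ h2 h3 h4 h5 h6 h7 h8 =>
  mvK_of su h2 h3 h4 h5 h6 h7 h8

end Crest.Agent.X212.Coc52
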