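import Crest.Agent.X212.Plb19.Main
import Crest.Agent.X212.Prf6.Main

/-!
# Row 212, PERF (helper52): the quarter turn corrected to an element of `K` (any genus)

`cls_T`, `turn`, and the first part of `plumb2` repeat the proofs of `Plb19/Main` (helper19), keeping
track of the class.
-/

set_option autoImplicit false
set_option linter.unusedSectionVars false
noncomputable section
open Set Filter Topology Function Complex
open scoped ContDiff Manifold

namespace Crest.Agent.X212.Coc52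
open Prf6 Plb19

section
variable {M : Type*} [TopologicalSpace M] [ChartedSpace ℂ M] [IsManifold IC ∞ M] [T2Space M]
  {o : Or M} {U U' d d' d'' : Set M} {c c₁ : ℝ} {A B Θ : ℂ → M}

/-- `c` is moved to `d` by an element of `K` supported in `U` -/
def MvK (o : Or M) (U c d : Set M) : Prop := ∃ k ∈ K o, Near k Uᶜ ∧ k '' c = d

theorem MvK.refl (o : Or M) (U d : Set M) : MvK o U d d := ⟨1, one_mem _, near_one _, by simp⟩

theorem MvK.symm (h : MvK o U d d') : MvK o U d' d := by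
  obtain ⟨k, h1, h2, rfl⟩ := h
  exact ⟨k⁻¹, inv_mem h1, h2.inv, by simp [image_image]⟩

theorem MvK.trans (h : MvK o U d d') (h' : MvK o U d' d'') : MvK o U d d'' := by
  obtain ⟨k, h1, h2, rfl⟩ := h
  obtain ⟨g, k1, k2, rfl⟩ := h'
  exact ⟨g * k, mul_mem k1 h1, k2.mul h2, by simp [image_image]⟩

theorem MvK.mono (h : MvK o U d d') (s : U ⊆ U') : MvK o U' d d' := by
  obtain ⟨k, h1, h2, h3⟩ := h
  exact ⟨k, h1, h2.mono (compl_subset_compl.2 s), h3⟩

theorem MvK.mv (h : MvK o U d d') : Mv o U d d' := by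
  obtain ⟨k, h1, h2, h3⟩ := h
  exact ⟨k, K_le h1, h2, h3, fun _ => h1⟩

theorem mvK_iso {φ : ℝ → Equiv.Perm M} (h : Iso o φ) (h' : NearI φ Uᶜ) (d : Set M) :
    MvK o U d (φ 1 '' d) := ⟨φ 1, h.one_mem, h'.near 1, rfl⟩

/-- correction of the class by twists along a parallel curve -/
theorem fix_cls (hA : An o A) (rA : range A ⊆ U) {k : Equiv.Perm M} (hk : k ∈ G o) (hU : Near k Uᶜ)
    {n : ℤ} (h : cls o k = cls o (tw A) ^ n) :
    ∃ k' ∈ K o, Near k' Uᶜ ∧ ∀ z : ℂ, z.im ≤ 1 → k' (A z) = k (A z) := by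
  let l : ℝ → ℝ := fun r => (-n : ℤ) * Real.smoothTransition (r - 1)
  have hl : ContDiff ℝ ∞ l := contDiff_const.mul (Real.smoothTransition.contDiff.comp (by fun_prop))
  have l0 : ∀ r ≤ 1, l r = (0 : ℤ) := fun r hr => by
    simp [l, Real.smoothTransition.zero_of_nonpos (sub_nonpos.2 hr)]
  have l1 : ∀ r > 2, l r = (-n : ℤ) := fun r hr => by
    simp [l, Real.smoothTransition.one_of_one_le (show 1 ≤ r - 1 by linarith)]
  have li : ∀ r ∉ Icc (1 : ℝ) 2, ∃ m : ℤ, l r = m := fun r hr =>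
    (not_and_or.1 hr).elim (fun a => ⟨_, l0 r (not_le.1 a).le⟩) fun a => ⟨_, l1 r (not_le.1 a)⟩
  have m := hA.sh_mem hl li
  refine ⟨k * tr A (sh l), (cls_eq_one (mul_mem hk m)).1 ?_, hU.mul (tr_near hA.1 (hA.wd_sh l)
    (isCompact_bx 1 2) (hA.out fun z hz => (li _ hz).imp fun m e => by simp [e])
    (disjoint_compl_right_iff_subset.2 ((image_subset_range _ _).trans rA))), fun z hz => ?_⟩
  · rw [cls_mul hk m, h, hA.cls_sh hl (fun r hr => l0 r hr.le) l1, sub_zero, zpow_neg, mul_inv_cancel]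
  · rw [Equiv.Perm.mul_apply, (hA.wd_sh l).apply, sh_apply, l0 _ hz]
    simp

variable (X : Tc o U c A B Θ)
include X

open Tc

/-- the transplanted shear is a twist up to isotopy -/
theorem cls_T {h : ℝ → Equiv.Perm ℂ} {l : ℝ → ℝ}
    (s : Shr c₁ h l) (hc : c₁ < c) : cls o (T Θ c (h 1)) = cls o (tw A) := by
  have hm : ∀ t, T Θ c (h t) ∈ G o := fun t => X.mem (s.ad t) hc (s.mem t)
  have li : ∀ r, c₁ ≤ |r| → ∃ n : ℤ, l r = n := fun r hr =>
    (le_abs'.1 hr).elim (fun a => ⟨0, by simp [s.l0 r a]⟩) fun a => ⟨1, by simp [s.l1 r a]⟩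
  have out : ∀ x, (∀ z : ℂ, |z.im| < c → A z ≠ x) → T Θ c (h 0) x = x := fun x hx => by
    by_cases hr : x ∈ Θ '' W c
    · obtain ⟨z, hz, rfl⟩ := hr
      rw [(X.spec (s.ad 0) hc.le).1 z hz, eq_comm, X.eq hz ((s.ad 0).maps hc.le hz)]
      have h1 : c ≤ dz z.im := not_lt.1 fun a => hx (z - round z.im * I) (by simpa [dz] using a)
        (X.a _ _ (by simpa [dz] using a) ⟨0, round z.im, by simp⟩).symm
      obtain ⟨n, e⟩ := li _ (hc.le.trans h1)
      exact ⟨round z.im + n, 0, by rw [s.zero, e]; simp; ring⟩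
    · exact (X.spec (s.ad 0) hc.le).2 x hr
  have e : tr A (sh l) = T Θ c (h 0) := by
    refine (X.hA.wd_sh l).ext (fun z => ?_) fun x hx => out x fun z _ e => hx ⟨z, e⟩
    by_cases hz : |z.im| < c
    · rw [← X.a z z hz (La.refl _), (X.spec (s.ad 0) hc.le).1 z (Or.inl ((dz_le_abs _).trans_lt hz)),
        s.zero, round_of_abs (hz.trans X.hi)]
      exact X.a _ _ (by simpa using hz) ⟨0, 0, by simp⟩
    · obtain ⟨n, e⟩ := li _ (hc.le.trans (not_lt.1 hz))
      rw [out _ fun w hw e => hz (X.hA.im_eq e ▸ hw), sh_apply, e, ofReal_intCast, X.hA.per]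
  rw [cls_path (X.sm s.cd s.ad hc) hm 1 0, ← e,
    X.hA.cls_sh s.lcd (a := -c₁) (b := c₁) (m := 0) (n := 1) (fun r hr => by simp [s.l0 r hr.le])
      (fun r hr => by simp [s.l1 r hr.le]), sub_zero, zpow_one]

/-- the quarter turn in the stretched charts -/
theorem turn {h : ℝ → Equiv.Perm ℂ} {l : ℝ → ℝ} (s : Shr c₁ h l) (hc : c₁ < c) :
    ∃ k ∈ G o, Near k Uᶜ ∧ cls o k = (cls o (tw A) * cls o (tw B) * cls o (tw A))⁻¹ ∧
      ∀ z : ℂ, |z.im| < 1 / 8 → k (A z) = B z ∧ k (B z) = A (-z) := by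
  have a := s.ad 1
  have lo := s.lo
  set k₁ := T Θ c (h 1)
  set k₂ := T (fun z => Θ (I * z)) c (h 1)
  have key : ∀ z : ℂ, dz z.im < 1 / 8 ∨ dz z.re < 1 / 8 → (k₁ * k₂ * k₁) (Θ z) = Θ (-I * z) := by
    intro z hz
    have w0 : z ∈ W c := W_mono (by linarith) hz
    have e1 : h 1 z = z + z.im + 1 / 2 := s.one z (hz.elim (fun a => Or.inr (by linarith))
      fun a => Or.inl (by linarith))
    have w1 : -I * h 1 z ∈ W c := W_rot.1 (by rw [II']; exact a.maps hc.le w0)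
    have r1 : (h 1 z).re = z.re + z.im + 1 / 2 := by simp [e1]
    have i1 : (h 1 z).im = z.im := by simp [e1]
    have t1 : dz (z.re + z.im + 1 / 2) ≤ 1 / 2 - dz z.im + dz z.re := by
      have := dz_add (z.im + 1 / 2) z.re
      rw [show z.im + 1 / 2 + z.re = z.re + z.im + 1 / 2 by ring] at this
      linarith [dz_half z.im]
    have t2 : dz (z.re + z.im + 1 / 2) ≤ 1 / 2 - dz z.re + dz z.im := by
      have := dz_add (z.re + 1 / 2) z.im
      rw [add_right_comm] at this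
      linarith [dz_half z.re]
    have e2 : I * h 1 (-I * h 1 z) = ⟨z.re + z.im + 1 / 2, -z.re⟩ := by
      rw [s.one _ ?_]
      · exact Complex.ext (by simp [r1]) (by simp [r1, i1]; ring)
      · simp only [neg_mul, neg_re, mul_re, I_re, I_im, neg_im, mul_im, zero_mul, one_mul, zero_sub,
          neg_neg, zero_add, dz_neg, r1, i1]
        by_cases h1 : dz z.im ≤ 1 / 4
        · exact Or.inl h1
        · exact Or.inr (by rcases hz with h2 | h2 <;> linarith)
    have w2 : I * h 1 (-I * h 1 z) ∈ W c := W_rot.2 (a.maps hc.le w1)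
    have e3 : h 1 (I * h 1 (-I * h 1 z)) = -I * z + 1 := by
      rw [e2, s.one _ ?_]
      · exact Complex.ext (by simp; ring) (by simp)
      · simp only [dz_neg]
        by_cases h1 : dz z.re ≤ 3 / 8
        · exact Or.inr h1
        · exact Or.inl (by rcases hz with h2 | h2 <;> linarith)
    have s2 := (X.swap.spec a hc.le).1 _ w1
    rw [II'] at s2
    show k₁ (k₂ (k₁ (Θ z))) = _
    rw [(X.spec a hc.le).1 z w0, s2, (X.spec a hc.le).1 _ w2, X.eq (a.maps hc.le w2)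
      (W_rot.1 (by rw [II']; exact w0)), e3]
    exact ⟨-1, 0, by simp⟩
  have m1 := X.mem a hc (s.mem 1)
  have m2 := X.swap.mem a hc (s.mem 1)
  refine ⟨(k₁ * k₂ * k₁)⁻¹, inv_mem (mul_mem (mul_mem m1 m2) m1),
    (((X.near a hc).mul (X.swap.near a hc)).mul (X.near a hc)).inv, by
      rw [cls_inv (mul_mem (mul_mem m1 m2) m1), cls_mul (mul_mem m1 m2) m1, cls_mul m1 m2,
        cls_T X s hc, cls_T X.swap s hc], fun z hz => ?_⟩
  have hz' : |z.im| < c := by linarith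
  have d := (dz_le_abs _).trans_lt hz
  rw [Equiv.Perm.inv_eq_iff_eq, Equiv.Perm.inv_eq_iff_eq, ← X.b z _ hz' (La.refl _),
    ← X.a z _ hz' (La.refl _), ← X.a (-z) _ (by simpa using hz') (La.refl _),
    key (I * z) (Or.inr (by simpa [dz_neg] using d)), key (-z) (Or.inl (by simpa [dz_neg] using d))]
  simp [II]

end

/-- PLUMB, strong form -/
def Plumb2 : Prop := ∀ (X : Sf) (U : Set X.R) (A B : ℂ → X.R) (δ : ℝ),
  Nf X.o U A B 1 δ (fun _ => 0) (fun _ => 0) (fun _ => 1) →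
  (∃ k ∈ K X.o, Near k Uᶜ ∧ ∃ δ' > 0, ∀ z : ℂ, |z.im| < δ' → k (A z) = B z) ∧
    ∃ k ∈ K X.o, Near k Uᶜ ∧ ∃ δ' > 0, ∀ z : ℂ, |z.im| < δ' → k (B z) = A (-z)

/-- LK, strong form -/
def Lk2 : Prop := ∀ (X : Sf) (U : Set X.R) (A B : ℂ → X.R), IsPreconnected (univ : Set X.R) →
  IsOpen U → An X.o A → An X.o B → core A ⊆ U → core B ⊆ U → IsPreconnected (U \ core A) →
  IsPreconnected (U \ core B) → MvK X.o U (core A) (core B)

theorem lk_of (h : Lk2) : Lk := fun X U A B h1 h2 h3 h4 h5 h6 h7 h8 =>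
  (h X U A B h1 h2 h3 h4 h5 h6 h7 h8).mv

theorem plumb2 : Plumb2 := by
  intro X U A B δ N
  obtain ⟨c₁, h, l, s⟩ := exists_shr
  have lo := s.lo
  have hi := s.hi
  obtain ⟨c, c1, c2⟩ := exists_between hi
  have c0 : 0 < c := by linarith
  obtain ⟨a, a0, a1, a2⟩ : ∃ a : ℝ, 0 < a ∧ a ≤ 1 ∧ a ≤ δ :=
    ⟨min 1 δ, lt_min one_pos N.pos, min_le_left _ _, min_le_right _ _⟩
  obtain ⟨Φ, P1, P2, P3, P4, P5⟩ := exists_Phi c0 c2 a0 a1
  have P6 : ∀ z, ∀ n : ℤ, Φ (z + n) = Φ z + n := fun z n => by simpa using P2 z n 0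
  have an : ∀ D, An X.o D → An X.o (D ∘ Φ) := fun D hD => ⟨fun z => (hD.1 _).comp (P1 z),
    fun z w => (hD.wd P6 z w).symm.trans (hD.2 z w)⟩
  have sm : ∀ z : ℂ, |z.im| < c → |(Φ z).im| < δ := fun z hz => by
    rw [P4 z hz.le, abs_mul, abs_of_pos a0]
    nlinarith [abs_nonneg z.im]
  have box : ∀ z : ℂ, |z.re| < δ → |z.im| < δ → B z = A (I * z) := fun z h1 h2 => by
    simpa using N.box 0 z h1 h2
  obtain ⟨Θ, Y⟩ := exists_tc (an A N.hA) (an B N.hB) ((range_comp_subset_range _ _).trans N.rA)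
    ((range_comp_subset_range _ _).trans N.rB) c0 c2 (fun z h1 h2 => by
      have := sm (I * z) (by simpa using h1)
      rw [P3] at this
      rw [comp_apply, comp_apply, P3, box _ (by simpa using this) (sm z h2)])
    fun z w hz hw e => by
      obtain ⟨-, m, hm⟩ := N.only _ _ (sm z hz) (sm w hw) e
      rw [comp_apply, comp_apply, ← N.hB.per (Φ w) (-m),
        box _ (by simpa [sub_eq_add_neg] using hm) (by simpa using sm w hw), N.hA.2] at e
      obtain ⟨n, e⟩ := e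
      exact ⟨n, m, Φ.injective (by rw [P3, P2]; push_cast at e; linear_combination e)⟩
  obtain ⟨k, k1, k2, k3, k4⟩ := turn Y s c1
  have e : cls X.o (tw (B ∘ Φ)) = cls X.o (tw (A ∘ Φ)) := by
    rw [← Y.hA.cls_tw_comp k1]
    exact cls_tw_germ Y.hB (Y.hA.comp k1) (by norm_num : (0 : ℝ) < 1 / 8) fun z hz => (k4 z hz).1.symm
  have e3 : cls X.o k = cls X.o (tw (A ∘ Φ)) ^ (-3 : ℤ) := by
    rw [k3, e, zpow_neg, zpow_ofNat, pow_three']
  obtain ⟨g, g1, g2, g3⟩ := fix_cls Y.hA Y.rA k1 k2 e3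
  obtain ⟨g', g1', g2', g3'⟩ := fix_cls Y.hB Y.rB k1 k2 (e ▸ e3)
  refine ⟨⟨g, g1, g2, a * (1 / 8), by positivity, fun z hz => ?_⟩,
    g', g1', g2', a * (1 / 8), by positivity, fun z hz => ?_⟩ <;>
  obtain ⟨w, rfl⟩ := Φ.surjective z <;>
  have hw := P5 w _ (by norm_num) (by linarith) hz
  · exact (g3 w (by linarith [le_abs_self w.im])).trans (k4 w hw).1
  · have := (g3' w (by linarith [le_abs_self w.im])).trans (k4 w hw).2
    rwa [comp_apply, comp_apply, ← II, P3, P3, II] at this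

end Crest.Agent.X212.Coc52
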